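import Vale.Agent.P235.K5.H913.Collar

/-!
# P235, line K5 / SX, row (S2): the collar alone, in any finite metric space (helper378)
-/

set_option autoImplicit false

namespace Vale.Agent.P235.K5.SX.H378

open Vale.Agent.P235

theorem l1_zero {V : Type} : IsL1 (fun _ _ : V => (0 : ℝ)) :=
  ⟨PUnit, inferInstance, fun _ => 0, fun _ _ => false, fun _ => le_rfl, fun x y => by simp⟩

/-- a nonempty set with at most three points is the range of a triple -/
theorem exists_range {V : Type} {R : Set V} (hR : R.ncard ≤ 3) (hf : R.Finite)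
    (hne : R.Nonempty) : ∃ r : Fin 3 → V, (∀ i, r i ∈ R) ∧ ∀ x ∈ R, ∃ i, r i = x := by
  obtain ⟨a, ha⟩ := hne
  have h1 : R.ncard = 1 ∨ R.ncard = 2 ∨ R.ncard = 3 := by
    have h2 : 0 < R.ncard := (Set.ncard_pos hf).2 ⟨a, ha⟩
    omega
  rcases h1 with h1 | h1 | h1
  · obtain ⟨x, rfl⟩ := Set.ncard_eq_one.1 h1
    exact ⟨fun _ => x, fun _ => rfl, fun y hy => ⟨0, hy.symm⟩⟩
  · obtain ⟨x, y, _, rfl⟩ := Set.ncard_eq_two.1 h1
    refine ⟨![x, y, y], ?_, ?_⟩
    · intro i
      fin_cases i
      · exact Or.inl rfl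
      · exact Or.inr rfl
      · exact Or.inr rfl
    · rintro z (rfl | rfl)
      · exact ⟨0, rfl⟩
      · exact ⟨1, rfl⟩
  · obtain ⟨x, y, z, _, _, _, rfl⟩ := Set.ncard_eq_three.1 h1
    refine ⟨![x, y, z], ?_, ?_⟩
    · intro i
      fin_cases i
      · exact Or.inl rfl
      · exact Or.inr (Or.inl rfl)
      · exact Or.inr (Or.inr rfl)
    · rintro t (rfl | rfl | rfl)
      · exact ⟨0, rfl⟩
      · exact ⟨1, rfl⟩
      · exact ⟨2, rfl⟩

/-- **(S2)** In any finite metric space every `L₁` semimetric `ρ ≤ d` on a set `R` of at most three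
points extends to an `L₁` semimetric `F ≤ d` such that `F` captures `d` up to the distance to `R`. -/
theorem s2 {V : Type} [Finite V] {d : V → V → ℝ} (hd : IsMet d) {R : Set V} (hR : R.ncard ≤ 3)
    {k : ℝ} (hk0 : 0 ≤ k) (hk : k ≤ 1 / 512) {ρ : V → V → ℝ} (hρ : IsL1 ρ)
    (hle : ∀ x ∈ R, ∀ y ∈ R, ρ x y ≤ d x y) :
    ∃ F : V → V → ℝ, IsL1 F ∧ (∀ x ∈ R, ∀ y ∈ R, F x y = ρ x y) ∧ (∀ x y, F x y ≤ d x y) ∧
      ∀ x y, k * d x y ≤ F x y ∨
        (∃ r ∈ R, ∃ s ∈ R, F r s + k * (d x r + d y s) ≤ F x y) ∨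
        ∀ r ∈ R, ∀ s ∈ R, k * d x y ≤ d x r + d y s := by
  have nn : ∀ x y, 0 ≤ d x y := by
    intro x y
    by_cases h : x = y
    · subst h
      rw [hd.self]
    · exact (hd.pos x y h).le
  rcases R.eq_empty_or_nonempty with hE | hne
  · subst hE
    refine ⟨fun _ _ => 0, l1_zero, fun x hx => absurd hx (Set.notMem_empty x), nn, fun x y => ?_⟩
    exact Or.inr (Or.inr fun r hr => absurd hr (Set.notMem_empty r))
  · obtain ⟨r, hr, hr'⟩ := exists_range hR R.toFinite hne
    obtain ⟨F, hF, hFd, hFρ, hcol⟩ := H913.collar hd r (fun p q => ρ (r p) (r q))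
      (fun p => hρ.self _) (fun p q => hρ.symm _ _) (fun p q s => hρ.tri _ _ _)
      (fun p q => hle _ (hr p) _ (hr q))
    refine ⟨F, hF, ?_, hFd, ?_⟩
    · intro x hx y hy
      obtain ⟨p, rfl⟩ := hr' x hx
      obtain ⟨q, rfl⟩ := hr' y hy
      exact hFρ p q
    · intro x y
      by_cases h1 : ∃ p q, ρ (r p) (r q) + (d x (r p) + d y (r q)) / 2 ≤ d x y / 128
      · obtain ⟨p, q, h1⟩ := h1
        obtain ⟨p', q', h2⟩ := hcol x y p q h1
        refine Or.inr (Or.inl ⟨r p', hr p', r q', hr q', ?_⟩)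
        rw [hFρ]
        have n1 := nn x (r p')
        have n2 := nn y (r q')
        have h3 : k * (d x (r p') + d y (r q')) ≤ 1 * (d x (r p') + d y (r q')) :=
          mul_le_mul_of_nonneg_right (by linarith) (by linarith)
        linarith
      · push Not at h1
        by_cases h2 : ∃ p q, d x (r p) + d y (r q) < d x y / 256
        · obtain ⟨p, q, h2⟩ := h2
          left
          have h3 := h1 p q
          have h4 := hFρ p q
          have h5 := hF.tri (r p) x (r q)
          have h6 := hF.tri x y (r q)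
          have h7 := hFd (r p) x
          have h8 := hFd y (r q)
          have h9 := hd.symm (r p) x
          have h10 : k * d x y ≤ 1 / 512 * d x y := mul_le_mul_of_nonneg_right hk (nn x y)
          linarith
        · push Not at h2
          right
          right
          intro a ha b hb
          obtain ⟨p, rfl⟩ := hr' a ha
          obtain ⟨q, rfl⟩ := hr' b hb
          have h3 := h2 p q
          have h10 : k * d x y ≤ 1 / 512 * d x y := mul_le_mul_of_nonneg_right hk (nn x y)
          have h11 := nn x y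
          linarith

end Vale.Agent.P235.K5.SX.H378
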