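import Vale.Agent.P235.K5.SX.Defs
import Vale.Agent.P235.K5.SX.H378.S2

/-!
# P235, line K5 / SX, row (S2) in the letters of `K5/SX/Defs.lean` (helper378)
-/

set_option autoImplicit false

namespace Vale.Agent.P235.K5.SX.H378

open Vale.Agent.P235 Vale.Agent.P235.K5.SX

theorem s2Stmt : S2Stmt := by
  intro V _ d hd R hR ρ hρ hle
  obtain ⟨F, h1, h2, h3, h4⟩ := s2 hd hR (k := 1 / 1024) (by norm_num) (by norm_num) hρ hle
  refine ⟨F, h1, h2, h3, fun x y => ?_⟩
  rcases h4 x y with h | h | h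
  · exact Or.inl h
  · exact Or.inr (Or.inl h)
  · exact Or.inr (Or.inr ⟨trivial, h⟩)

end Vale.Agent.P235.K5.SX.H378
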